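import Crest.Agent.X212.Mc37.Core
import Crest.Agent.X212.Sf30.P2Rev
import Crest.Agent.X212.Mcg32.Extd
import Crest.Agent.X212.Hp13.NegM

/-!
# X212 / Mc37 (helper37): (M), the pieces of the cutting surface in the balls are discs
-/

set_option autoImplicit false
set_option linter.unusedSectionVars false

open Finset Classical

noncomputable section

namespace Crest.Agent.X212.Mc37

open Crest.Agent.X212.Hp13 Alg36 Cut21 Ind26 Pt30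
open Sf30 hiding Inn
open Sup43 (Inn inn_up inn_sub good_inn inn_desc)
open Kh11 (WS In)

variable {s s' : St} {z : s.P → s.P → ℤ} {π : s'.P → s.P} {V : Set s.P} {Δ : Set (Ch s.P)}

/-- the test disc -/
def ph (π : s'.P → s.P) (V : Set s.P) (Δ : Set (Ch s.P)) (x y : s'.P) : ℤ :=
  if π y ∈ V ∧ ∃ b ∈ Inn s'.A, y ≤ b ∧ Rl Δ (π x) (π b) then 1 else 0

namespace Fx
variable (h : Fx s s' z π) (hV : IsUpperSet V) (hΔ : IsCmp (Hs V (Uz s.A z)) Δ)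
include h hV hΔ

theorem ph_eq {x y b : s'.P} (l : x ≤ y) (l' : y ≤ b) (hb : b ∈ Inn s'.A) :
    ph π V Δ x y = if π y ∈ V ∧ Rl Δ (π x) (π b) then 1 else 0 :=
  if_congr (and_congr_right fun hy => ⟨fun ⟨b', h1, h2, h3⟩ =>
    (conn_ge inn_up h.nice' y b' ⟨h1, h2⟩ b ⟨hb, l'⟩).ind (p := fun t => Rl Δ (π x) (π t)) h3
      fun _ k _ _ m => rl_r hΔ hV h.upU (h.mon (l.trans k.2)) (h.mon m) (hV (h.mon k.2) hy)
        (h.piB k.1), fun k => ⟨b, hb, l', k⟩⟩) rfl rfl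

theorem ph_pos {x y b : s'.P} (l : x ≤ y) (l' : y ≤ b) (hb : b ∈ Inn s'.A) :
    0 < ph π V Δ x y ↔ π y ∈ V ∧ Rl Δ (π x) (π b) := by
  rw [h.ph_eq hV hΔ l l' hb]; split_ifs with k <;> simp [k]

theorem ph_z1 : Z1 (Inn s'.A) (ph π V Δ) := by
  refine ⟨fun a ha x y w l l' _ _ k => ?_, fun x y _ => ?_, fun x y _ => ?_⟩
  rotate_left
  · unfold ph; split_ifs <;> simp
  · unfold ph; split_ifs <;> simp
  obtain ⟨b, hb, m⟩ : ∃ b ∈ Inn s'.A, w ≤ b :=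
    k.elim (fun j => ⟨w, inn_up j ha, le_rfl⟩) fun j => ⟨a, ha, j⟩
  rw [h.ph_eq hV hΔ (l.trans l') m hb, h.ph_eq hV hΔ l (l'.trans m) hb, h.ph_eq hV hΔ l' m hb]
  by_cases hy : π y ∈ V
  · have : ¬ Rl Δ (π y) (π b) := fun j => (j.mem hΔ).1 hy
    simp [hy, hV (h.mon l') hy, this]
  by_cases hw : π w ∈ V
  · simp [hy, hw, rl_l hΔ hV (h.mon l) (h.mon (l'.trans m)) hy (hV (h.mon m) hw) (h.piB hb)]
  · simp [hy, hw]

theorem ph_ws : WS (Mx (Inn s'.A) (ph π V Δ)) {c | Rl Δ c.bot c.top} h.cov.toLift.im := by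
  convert h.ws_im (F := {c | Rl Δ c.bot c.top}) fun _ k => (Rl.mem hΔ k).2.2 using 1
  refine Set.ext fun c => and_congr_right fun k => ?_
  rw [h.ph_pos hV hΔ c.bot_le_top le_rfl k, Set.mem_ofPred_eq, h.cov.toLift.top_im,
    h.cov.toLift.bot_im]
  exact and_iff_right_of_imp fun j => (j.mem hΔ).2.1

/-- an innermost disc gives a contradiction -/
theorem test (rv : RvStmt) (np : NegPStmt) (hs : V ⊆ Inn s.A)
    (ho : Out (Inn s.A) ((Inn s.A \ Uz s.A z) \ V))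
    (bad : ∀ D, IsCmp (V \ Uz s.A z) D → ¬ H1Z D) (he : eu Δ = 1) {p : Prop}
    (hp : ∀ c ∈ Δ, ∀ d, c ≤ d → ∀ k ∈ d.1, k ∈ V \ Uz s.A z → (z k c.top = 0 ↔ p))
    (ht : ∃ c ∈ Δ, ∃ d, c ≤ d ∧ Mt (V \ Uz s.A z) d) : False := by
  obtain ⟨z1, vt, w⟩ := rv s' _ h.st' (h.ph_z1 hV hΔ)
  have w1 := w.comp (h.ph_ws hV hΔ)
  have w2 := ws_bar hΔ hV
  have eI : ∀ n : Ch s'.P, n ∈ Inn s'.sd.A ↔ n.top ∈ Inn s'.A := fun _ => mem_inn_sd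
  set F := Mx (Inn s'.sd.A) (rev (ph π V Δ))
  have tc : Tc (Inn s'.sd.A) (rev (ph π V Δ)) F := by
    obtain ⟨c, hc, d, l, k, a1, hk⟩ := ht
    have c1 := hΔ.sub hc
    have l1 : c.bot ≤ k := (d.cm (l c.bot_mem) a1).resolve_right fun j => c1.1.1 (hV j hk.1)
    have l2 : k ≤ c.top :=
      (d.cm a1 (l c.top_mem)).resolve_right fun j => hk.2 (h.upU j (Hs.top c1))
    obtain ⟨b, hb, e⟩ := h.exB (Hs.top c1)
    obtain ⟨q, hq, rfl⟩ := h.exD hb (e ▸ l2)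
    obtain ⟨x, hx, e'⟩ := h.exD hb (e ▸ c.bot_le_top)
    have l3 : x ≤ q := h.le_dn hb.1 hx hq (e' ▸ l1)
    have f : 0 < ph π V Δ x q := (h.ph_pos hV hΔ l3 hq hb).2 ⟨hk.1, c, hc, e'.symm, e.symm⟩
    have m1 : Ch.pt q ≤ Ch.pr x q l3 := Ch.pt_le.2 (by simp)
    have m2 : Ch.pr x q l3 ≤ Ch.tr x q b l3 hq :=
      Ch.pr_le _ (Ch.mem_tr.2 (by simp)) (Ch.mem_tr.2 (by simp))
    refine ⟨Ch.tr _ _ _ m1 m2, ⟨(eI _).2 (by rwa [Ch.top_tr, Ch.top_tr]), ?_⟩, _,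
      Ch.mem_tr.2 (Or.inl rfl), _, Ch.mem_tr.2 (Or.inr (Or.inl rfl)), m1,
      fun j => hk.2 (h.piB (by simpa using (eI _).1 j)), by simpa [rev] using f⟩
    rw [Ch.top_tr, Ch.bot_tr]
    simpa [rev, Ch.bot_tr] using f
  have cF : IsCmp F F := isCmp_of subset_rfl (let ⟨c, hc, _⟩ := tc; ⟨c, hc⟩)
    (w1.conn_iff.2 (w2.conn_iff.1 hΔ.conn)) fun _ _ _ k _ => k
  have eF : eu F = 1 := by rw [w1.eu_eq, ← w2.eu_eq, he]
  have sd : ∀ C ∈ F, ∀ d ∈ C.1, d.top ∈ Inn s'.A ∨ (d.top ∈ s'.A ↔ p) := fun C hC d hd => by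
    have hb := (eI _).1 hC.1
    have m : C.bot.bot ∈ d.1 := Ch.bot_le hd C.bot.bot_mem
    have l := Ch.top_mono (Ch.le_top hd)
    have l0 := Ch.bot_anti C.bot_le_top
    obtain ⟨h1, c, hc, e1, e2⟩ := (h.ph_pos hV hΔ l0 ((Ch.le_top m).trans l) hb).1 hC.2
    have hv := hV (h.mon (Ch.le_top m)) h1
    refine (Classical.em _).imp id fun k => ?_
    have hu : π d.top ∉ Uz s.A z := fun j => k (h.memB hb l j)
    have l1 := h.mon (l0.trans (Ch.le_top m))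
    have l2 := h.mon l
    have c1 := hΔ.sub hc
    have := hp _ (hΔ.clopen hc (pr_hs (l1.trans l2) (e1 ▸ c1.1.1) (e2 ▸ c1.1.2) (h.piB hb))
      (Or.inr (Ch.pr_le _ (e1 ▸ c.bot_mem) (e2 ▸ c.top_mem)))) (Ch.tr _ _ _ l1 l2)
      (Ch.pr_le _ (Ch.mem_tr.2 (by simp)) (Ch.mem_tr.2 (by simp))) _ (Ch.mem_tr.2 (by simp))
      ⟨hv, hu⟩
    rw [Ch.top_pr] at this
    exact (h.side hb l (hs hv)).trans this
  obtain ⟨W, hW⟩ : ∃ W, Ng s'.sd.A (rev (ph π V Δ)) W := by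
    by_cases k : p
    · exact np _ _ F (stt_sd h.st') z1 vt cF eF tc fun C hC =>
        (sd C hC _ C.bot_mem).elim (fun j => j.1) fun j => j.2 k
    · exact negMStmt _ _ F (stt_sd h.st') z1 vt cF eF tc fun C hC d hd m =>
        have m' := mem_fr_sd.1 m
        (sd C hC d hd).elim (fun j => j.2 m') fun j => k (j.1 m'.1)
  exact h.no_ng hV hs ho bad (fun x y k => by
    unfold ph at k
    split_ifs at k with j
    · exact let ⟨j1, _, _, _, j2⟩ := j; ⟨(j2.mem hΔ).1, j1⟩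
    · simp at k) hW

end Fx

theorem fx_of (h : Pk s s' z π) : Fx s s' z π where
  toPk := h
  f1 _ hb := h.mem_inn.trans (and_iff_right hb)
  f4 _ hk := ⟨h.ctr_lz (h.lz0_ne (Pk.kz_of hk).1), h.ctr_lz (h.lz1_kz (Pk.kz_of hk))⟩
  f6 _ hq hn := let ⟨r, a, y, b, c, d, e⟩ := h.walk hq hn; ⟨r, a, y, c, b, d, e⟩
  f7 := h.out

theorem rv : RvStmt := fun s e hs he => by
  rw [show Inn s.sd.A = Ch.top ⁻¹' Inn s.A from inn_sd]
  exact ⟨he.rev, vt_rev (good_inn hs.toGood hs.thick).nice he.coc, ws_rev he subset_rfl⟩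

/-- **(M)** -/
theorem mc (np : NegPStmt) : McStmt := by
  intro s s' z π Z h0 hZ h1 o1 o2
  have h := fx_of h0
  set M := Inn s.A
  set U := Uz s.A z
  set T := (M \ U) \ Z
  have uM : IsUpperSet M := inn_up
  have lo : ∀ y ∈ Gd T, ∀ x ∈ M \ Z, x ≤ y → x ∈ Gd T := fun y hy x hx l =>
    gd_clo hy ⟨⟨hx.1, fun j => hy.1.1.2 (h.upU l j)⟩, hx.2⟩ (Or.inr l)
  have inU : ∀ y ∈ Gd T, ∀ v ∈ (M \ Z) \ Gd T, y ≤ v → v ∈ U := fun y hy v hv l =>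
    by_contra fun j => hv.2 (gd_clo hy ⟨⟨hv.1.1, j⟩, hv.1.2⟩ (Or.inl l))
  have ofU : ∀ u ∈ U \ Z, u ∈ (M \ Z) \ Gd T := fun u hu =>
    ⟨⟨hu.1.1, hu.2⟩, fun j => j.1.1.2 hu.1⟩
  have h2 : H1Z ((M \ Z) \ Gd T) := fun w hw => by
    obtain ⟨w', a, b⟩ := Mcg32.extd s.P (M \ Z) (Gd T) (fun y v => 0 < z y v)
      (fun _ k => ⟨k.1.1.1, k.1.2⟩) lo
      (fun y hy y' _ v hv l l' => by rw [h.add hv.1.1.1 l l', h.zK hy.1.1 l, zero_add])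
      (fun y hy v hv v' hv' l l' => by
        rw [h.add hv'.1.1.1 l l', h.zU (inU y hy v hv l) l', add_zero])
      (fun y hy => by
        have := h.f4 y hy.1.1
        have m : ∀ u ∈ U, y ≤ u → u ∈ (M \ Z) \ Gd T := fun u hu l =>
          ofU u ⟨hu, fun j => hy.1.2 (hZ l j)⟩
        constructor
        · convert this.2 using 1
          refine Set.ext fun v => ⟨fun k => ⟨inU y hy v k.1 k.2.1, k.2.1, ?_⟩,
            fun k => ⟨m v k.1 k.2.1, k.2.1, by rw [k.2.2]; exact one_pos⟩⟩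
          have := h0.le1 k.1.1.1.1 k.2.1 le_rfl
          have := k.2.2
          omega
        · convert this.1 using 1
          refine Set.ext fun v => ⟨fun k => ⟨inU y hy v k.1 k.2.1, k.2.1, ?_⟩,
            fun k => ⟨m v k.1 k.2.1, k.2.1, by rw [k.2.2]; exact lt_irrefl _⟩⟩
          have := h0.nn k.1.1.1.1 k.2.1 le_rfl
          have := k.2.2
          omega) (h1z_gd T) w hw
    obtain ⟨g, hg⟩ := h1 w' a
    exact ⟨g, fun x hx y hy l => (b x hx y hy l).symm.trans (hg x hx.1 y hy.1 l)⟩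
  by_cases c : T ⊆ Gd T
  · rwa [show U \ Z = (M \ Z) \ Gd T from Set.ext fun v => ⟨ofU v, fun k =>
      ⟨by_contra fun j => k.2 (c ⟨⟨k.1.1, j⟩, k.1.2⟩), k.1.2⟩⟩]
  exfalso
  obtain ⟨k, k1, k2⟩ := Set.not_subset.1 c
  have hC := isCmp_cmp (E := (M \ Z) \ Gd T) ⟨⟨k1.1.1, k1.2⟩, k2⟩
  have k3 : k ∈ cmp ((M \ Z) \ Gd T) k := mem_cmp_self ⟨⟨k1.1.1, k1.2⟩, k2⟩
  set V := cmp ((M \ Z) \ Gd T) k
  have hV : IsUpperSet V := hC.upper fun x y l hx =>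
    ⟨⟨uM l hx.1.1, fun j => hx.1.2 (hZ l j)⟩, fun j => hx.2 (lo y j x hx.1 l)⟩
  have hs : V ⊆ M := fun _ j => (hC.sub j).1.1
  have hT : V \ U ⊆ T := fun _ j => ⟨⟨hs j.1, j.2⟩, (hC.sub j.1).1.2⟩
  have cl : ∀ x ∈ V \ U, ∀ y ∈ T, Cm x y → y ∈ V \ U := fun x hx y hy l =>
    ⟨hC.clopen hx.1 ⟨⟨hy.1.1, hy.2⟩, fun j => (hC.sub hx.1).2 (gd_clo j (hT hx) l.symm)⟩ l, hy.1.2⟩
  have he : 1 ≤ eu V := by_contra fun j =>
    let ⟨w, a, b, _⟩ := Mf.exists_cocOn h.st.mf (hs.trans inn_sub) hC.ne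
      (h.st.esc.mono (hs.trans inn_sub)) (by omega)
    b (h1z_cmp hC h2 w a)
  have ho : Out M ((M \ U) \ V) := fun n hn => by
    obtain ⟨n', r, o⟩ := h.f7 n hn.1
    have := Ind26.rch_ind r (p := fun t => Rch ((M \ U) \ V) n t ∨
      ∃ n', Rch ((M \ U) \ V) n n' ∧ ∃ x, x ∉ M ∧ x ≤ n') (Or.inl Rch.rfl)
      fun a ha b hb l j => j.elim (fun j => ?_) Or.inr
    · exact this.elim (fun j => ⟨n', j, o⟩) id
    by_cases m : a ∈ Z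
    · obtain ⟨t, r', o'⟩ := o2 a ⟨ha, m⟩
      exact Or.inr ⟨t, j.trans (r'.mono fun _ k => ⟨k.1, fun i => (hC.sub i).1.2 k.2⟩), o'⟩
    · exact Or.inl (j.trans (Rch.of_cm (j.mem hn)
        ⟨hb, fun i => (j.mem hn).2 (cl b ⟨i, hb.2⟩ a ⟨ha, m⟩ l.symm).1⟩ l))
  have hc : Conn (Bd V) := conn_bd hV hs h0.good.bnd hC.conn fun x hx v hv l => by
    by_cases m : x ∈ Z
    · obtain ⟨t, r, o⟩ := o1 x ⟨hx.1, m⟩
      exact ⟨t, r.mono fun _ k => ⟨k.1, fun i => (hC.sub i).1.2 k.2⟩, o⟩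
    · have : x ∈ Gd T := by_contra fun j => hx.2 (hC.clopen hv ⟨⟨hx.1, m⟩, j⟩ (Or.inr l))
      obtain ⟨t, r, o⟩ := ho x ⟨this.1.1, hx.2⟩
      exact ⟨t, r.mono fun _ k => ⟨k.1.1, k.2⟩, o⟩
  obtain ⟨x0, a1, k0, a2, a3⟩ : ∃ x0, x0 ∉ V ∧ ∃ k0 ∈ V \ U, x0 ≤ k0 := by_contra fun j => by
    obtain ⟨n, r, o, o3, o4⟩ := h.f7 k k1.1
    exact j ⟨o, fun i => o3 (hs i), n, ⟨r.ind (p := (· ∈ V)) k3 fun a _ b hb l =>
      ⟨hV l, fun i => by_contra fun i' => j ⟨a, i', b, ⟨i, hb.2⟩, l⟩⟩, (r.mem k1.1).2⟩, o4⟩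
  have two : Two V U fun k u => z k u = 0 := ⟨hV, h.upU,
    fun k _ k' hk' u hu l l' => by rw [h.add hu.1.1 l l', h.zK ⟨hs hk'.1, hk'.2⟩ l, zero_add],
    fun k _ u hu u' l l' => by rw [h.add (h.upU l' hu).1.1 l l', h.zU hu l', add_zero],
    fun k hk => h.ex_side ⟨hs hk.1, hk.2⟩⟩
  obtain ⟨Δ, hΔ, e, ⟨p, hp⟩, ht⟩ := two.disc (h0.mf.mono hs) hc he a1 a2 a3
  refine h.test hV hΔ rv np hs ho (fun D ⟨t, b1, b2⟩ b3 => (hC.sub b1.1).2 ⟨hT b1, ?_⟩) e hp ht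
  rwa [show cmp T t = D from b2 ▸ Set.ext fun y => ⟨fun j =>
    have := Rch.in_clopen cl b1 j.2; ⟨this.mem b1, this⟩, fun j => ⟨hT j.1, j.2.mono hT⟩⟩]

end Crest.Agent.X212.Mc37
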