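import Crest.Agent.X212.Mc37.Sph

/-!
# X212 / Mc37 (helper37): the test disc in the cut manifold
-/

set_option autoImplicit false
set_option linter.unusedSectionVars false

open Finset Classical

noncomputable section

namespace Crest.Agent.X212.Mc37

open Crest.Agent.X212.Hp13 Alg36 Cut21 Ind26 Pt30
open Sf30 hiding Inn
open Sup43 (Inn inn_up inn_sub good_inn inn_desc)
open Kh11 (WS In)

section
variable {P : Type} [PartialOrder P] [Fintype P] {V U B : Set P} {Δ : Set (Ch P)}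

theorem Rl.mem (hΔ : IsCmp (Hs V U) Δ) {x u : P} (h : Rl Δ x u) : x ∉ V ∧ u ∈ V ∧ u ∈ U :=
  let ⟨_, k, e1, e2⟩ := h; e1 ▸ e2 ▸ ⟨(hΔ.sub k).1.1, (hΔ.sub k).1.2, Hs.top (hΔ.sub k)⟩

theorem tr_hs {x y w : P} (l : x ≤ y) (l' : y ≤ w) (hx : x ∉ V) (hy : y ∉ V \ U) (hw : w ∈ V)
    (hu : w ∈ U) : Ch.tr x y w l l' ∈ Hs V U := ⟨tr_bd l l' hx hw, fun ⟨a, ha, k⟩ => by
  rcases Ch.mem_tr.1 ha with rfl | rfl | rfl
  exacts [hx k.1, hy k, k.2 hu]⟩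

theorem rl_r (hΔ : IsCmp (Hs V U) Δ) (hV : IsUpperSet V) (hU : IsUpperSet U) {x u u' : P}
    (l : x ≤ u) (l' : u ≤ u') (hv : u ∈ V) (hu : u ∈ U) : Rl Δ x u ↔ Rl Δ x u' := by
  by_cases hx : x ∈ V
  · exact iff_of_false (fun k => (k.mem hΔ).1 hx) fun k => (k.mem hΔ).1 hx
  have t := tr_hs l l' hx (fun k => k.2 hu) (hV l' hv) (hU l' hu)
  exact (rl_iff hΔ t l (Ch.mem_tr.2 (by simp)) (Ch.mem_tr.2 (by simp)) (pr_hs _ hx hv hu)).trans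
    (rl_iff hΔ t (l.trans l') (Ch.mem_tr.2 (by simp)) (Ch.mem_tr.2 (by simp))
      (pr_hs _ hx (hV l' hv) (hU l' hu))).symm

theorem rl_l (hΔ : IsCmp (Hs V U) Δ) (hV : IsUpperSet V) {x x' u : P}
    (l : x ≤ x') (l' : x' ≤ u) (hx : x' ∉ V) (hv : u ∈ V) (hu : u ∈ U) :
    Rl Δ x u ↔ Rl Δ x' u := by
  have hx0 : x ∉ V := fun k => hx (hV l k)
  have t := tr_hs l l' hx0 (fun k => hx k.1) hv hu
  exact (rl_iff hΔ t (l.trans l') (Ch.mem_tr.2 (by simp)) (Ch.mem_tr.2 (by simp))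
    (pr_hs _ hx0 hv hu)).trans (rl_iff hΔ t l' (Ch.mem_tr.2 (by simp)) (Ch.mem_tr.2 (by simp))
      (pr_hs _ hx hv hu)).symm

/-- the disc with its collar -/
theorem ws_bar (hΔ : IsCmp (Hs V U) Δ) (hV : IsUpperSet V) :
    WS Δ {c | Rl Δ c.bot c.top} id := by
  refine WS.of_int' (fun c hc => ⟨c, hc, rfl, rfl⟩) fun c hc => ?_
  obtain ⟨h1, h2, h3⟩ := Rl.mem hΔ hc
  have m1 : c.bot ∈ c.1.filter (· ∉ V \ U) := mem_filter.2 ⟨c.bot_mem, fun k => h1 k.1⟩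
  have m2 : c.top ∈ c.1.filter (· ∉ V \ U) := mem_filter.2 ⟨c.top_mem, fun k => k.2 h3⟩
  refine ⟨c.sub _ ⟨_, m1⟩ (filter_subset _ _), (rl_iff hΔ ⟨⟨fun k => h1 (hV (Ch.bot_le m1) k),
    hV (Ch.le_top m2) h2⟩, fun ⟨_, ha, k⟩ => (mem_filter.1 ha).2 k⟩ c.bot_le_top m1 m2
    (pr_hs _ h1 h2 h3)).1 hc, filter_subset _ _, fun d hd l x hx => mem_filter.2
      ⟨l hx, fun k => (hΔ.sub hd).2 ⟨x, hx, k⟩⟩⟩

theorem om_sd {n : Ch P} : n ∈ Om (Ch.top ⁻¹' B : Set (Ch P)) ↔ n.top ∈ Om B :=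
  ⟨fun ⟨h, i, hi, l⟩ => ⟨h, i.top, hi, Ch.top_mono l⟩, fun ⟨h, b, hb, l⟩ =>
    ⟨h, n.ins b fun _ hx => Or.inr ((Ch.le_top hx).trans l),
      show (n.ins b _).top ∈ B by rwa [top_ins' _ l], n.le_ins _ _⟩⟩

theorem om_dn (hB : IsUpperSet B) {x y : P} (hy : y ∈ Om B) (l : x ≤ y) : x ∈ Om B :=
  let ⟨h, b, hb, l'⟩ := hy; ⟨fun k => h (hB l k), b, hb, l.trans l'⟩

theorem conn_ge (hB : IsUpperSet B) (hN : Nice B) (y : P) : Conn {b | b ∈ B ∧ y ≤ b} := by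
  by_cases k : y ∈ B
  · exact conn_cone (m := y) ⟨k, le_rfl⟩ fun _ hx => Or.inr hx.2
  · intro b hb
    exact (Nice.ctr_ge hB.ordConnected hN ⟨k, b, hb⟩).conn b hb

end

/-- the facts on a cut that are used -/
structure Fx (s s' : St) (z : s.P → s.P → ℤ) (π : s'.P → s.P) : Prop extends Pk s s' z π where
  f1 : ∀ b ∈ s'.A, b ∈ Inn s'.A ↔ π b ∈ Uz s.A z
  f4 : ∀ k ∈ Inn s.A \ Uz s.A z, Ctr (Lz s.A z k 0) ∧ Ctr (Lz s.A z k 1)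
  f6 : ∀ q ∈ Om (Inn s'.A), π q ∉ Inn s.A →
    ∃ q', Rch {r | r ∈ Om (Inn s'.A) ∧ π r ∉ Inn s.A} q q' ∧
      ∃ y b, y ∉ s'.A ∧ b ∈ Fr s'.A ∧ y ≤ b ∧ (q' = y ∨ q' = b)
  f7 : Out (Inn s.A) (Inn s.A \ Uz s.A z)

/-- what is used of the reversed surface -/
def RvStmt : Prop := ∀ (s : St) (e : s.P → s.P → ℤ), Stt s → Z1 (Inn s.A) e →
  Z1 (Inn s.sd.A) (rev e) ∧ Vt s.sd.A (rev e) ∧
    WS (Mx (Inn s.sd.A) (rev e)) (Mx (Inn s.A) e) Ch.top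

variable {s s' : St} {z : s.P → s.P → ℤ} {π : s'.P → s.P}

/-- the lifts of the cutting surface to one side -/
def Ts (s : St) (z : s.P → s.P → ℤ) (π : s'.P → s.P) (p : Prop) : Set s'.P :=
  {q | q ∈ Om (Inn s'.A) ∧ π q ∈ Inn s.A \ Uz s.A z ∧ (q ∈ s'.A ↔ p)}

namespace Fx
variable (h : Fx s s' z π)
include h

theorem add {x y w : s.P} (hw : w ∈ s.A) (l : x ≤ y) (l' : y ≤ w) : z x w = z x y + z y w :=
  h.adm.sf.coc w hw x y w l l' (Or.inr (l.trans l')) (Or.inr l') Cm.rfl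

theorem nn {x y w : s.P} (hw : w ∈ s.A) (l : x ≤ y) (l' : y ≤ w) : 0 ≤ z x y :=
  h.adm.sf.1 x y ⟨l, w, hw, Or.inr (l.trans l'), Or.inr l'⟩

theorem upU : IsUpperSet (Uz s.A z) := fun u v l hu => ⟨inn_up l hu.1, fun ⟨_, w, hw, l', k⟩ =>
  hu.2 ⟨hu.1.1, w, hw, l.trans l', by
    have := h.nn hw l l'; rw [h.add hw l l']; omega⟩⟩

theorem zU {u v : s.P} (hu : u ∈ Uz s.A z) (l : u ≤ v) : z u v = 0 :=
  have hv := (inn_up l hu.1).1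
  le_antisymm (not_lt.1 fun k => hu.2 ⟨hu.1.1, v, hv, l, k⟩) (h.nn hv l le_rfl)

theorem zK {x k : s.P} (hk : k ∈ Inn s.A \ Uz s.A z) (l : x ≤ k) : z x k = 0 := by
  obtain ⟨-, w, hw, l', j⟩ : k ∈ Kz s.A z := by_contra fun j => hk.2 ⟨hk.1, j⟩
  have := h.jk x w (Or.inl hw) (l.trans l')
  have := h.nn hw l l'
  rw [h.add hw l l'] at *
  omega

theorem memB {q b : s'.P} (hb : b ∈ Inn s'.A) (l : q ≤ b) (hq : π q ∈ Uz s.A z) :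
    q ∈ Inn s'.A :=
  have k := (h.cov.dn b hb.1 q l).2 ⟨hq.1.1, h.zU hq (h.cov.mon l)⟩
  (h.f1 q k).2 hq

theorem exB {u : s.P} (hu : u ∈ Uz s.A z) : ∃ b ∈ Inn s'.A, π b = u :=
  let ⟨b, hb, e⟩ := h.cov.exA hu.1.1; ⟨b, (h.f1 b hb).2 (e ▸ hu), e⟩

theorem exD {b : s'.P} (hb : b ∈ Inn s'.A) {x : s.P} (l : x ≤ π b) : ∃ q, q ≤ b ∧ π q = x :=
  let ⟨q, hq, e⟩ := h.cov.ex hb.1 (Or.inr l)
  ⟨q, h.cov.refl b hb.1 q b hq Cm.rfl (e ▸ l), e⟩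

theorem piB {b : s'.P} (hb : b ∈ Inn s'.A) : π b ∈ Uz s.A z := (h.f1 b hb.1).1 hb

theorem side {q b : s'.P} (hb : b ∈ Inn s'.A) (l : q ≤ b) (hq : π q ∈ Inn s.A) :
    q ∈ s'.A ↔ z (π q) (π b) = 0 := (h.cov.dn b hb.1 q l).trans (and_iff_right hq.1)

theorem side_eq {q q' : s'.P} (l : q ≤ q') (h1 : π q ∈ Inn s.A) (h2 : q' ∈ Om (Inn s'.A))
    (h3 : π q' ∈ Inn s.A \ Uz s.A z) : q ∈ s'.A ↔ q' ∈ s'.A := by
  obtain ⟨-, b, hb, l'⟩ := h2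
  rw [h.side hb (l.trans l') h1, h.side hb l' h3.1,
    h.add (h.piB hb).1.1 (h.cov.mon l) (h.cov.mon l'), h.zK h3 (h.cov.mon l), zero_add]

theorem ex_side {k : s.P} (hk : k ∈ Inn s.A \ Uz s.A z) (p : Prop) :
    ∃ u ∈ Uz s.A z, k ≤ u ∧ (z k u = 0 ↔ p) := by
  by_cases hp : p
  · obtain ⟨u, hu⟩ := (h.f4 k hk).1.ne
    exact ⟨u, hu.1, hu.2.1, iff_of_true hu.2.2 hp⟩
  · obtain ⟨u, hu⟩ := (h.f4 k hk).2.ne
    exact ⟨u, hu.1, hu.2.1, iff_of_false (by rw [hu.2.2]; simp) hp⟩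

theorem ts_surj {k : s.P} (hk : k ∈ Inn s.A \ Uz s.A z) (p : Prop) : ∃ q ∈ Ts s z π p, π q = k := by
  obtain ⟨u, hu, l, e⟩ := h.ex_side hk p
  obtain ⟨b, hb, rfl⟩ := h.exB hu
  obtain ⟨q, hq, rfl⟩ := h.exD hb l
  exact ⟨q, ⟨⟨fun j => hk.2 (h.piB j), b, hb, hq⟩, hk, (h.side hb hq hk.1).trans e⟩, rfl⟩

theorem ts_le {p : Prop} {q q' : s'.P} (h1 : q ∈ Ts s z π p) (h2 : q' ∈ Ts s z π p)
    (l : π q ≤ π q') : q ≤ q' := by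
  obtain ⟨-, b, hb, k⟩ := h1.1
  obtain ⟨-, b', hb', k'⟩ := h2.1
  obtain ⟨r, hr, e⟩ := h.exD hb' (l.trans (h.cov.mon k'))
  have l' : r ≤ q' := h.cov.refl b' hb'.1 r q' (Or.inr hr) (Or.inr k') (e ▸ l)
  have hM : π r ∈ Inn s.A := e ▸ h1.2.1.1
  refine h.inj b' hb'.1 b hb.1 r q hr k e ?_ ▸ l'
  have a1 := (h.side hb' hr hM).symm.trans ((h.side_eq l' hM h2.1 h2.2.1).trans
    (h2.2.2.trans (h1.2.2.symm.trans (h.side hb k h1.2.1.1))))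
  have a2 := h.jk _ _ (Or.inl (h.piB hb').1.1) (h.cov.mon hr)
  have a3 := h.jk _ _ (Or.inl (h.piB hb).1.1) (h.cov.mon k)
  have a4 := h.nn (h.piB hb').1.1 (h.cov.mon hr) le_rfl
  have a5 := h.nn (h.piB hb).1.1 (h.cov.mon k) le_rfl
  omega

theorem ws_im {F : Set (Ch s.P)} (hF : ∀ c ∈ F, c.top ∈ Uz s.A z) :
    WS {c : Ch s'.P | c.top ∈ Inn s'.A ∧ h.cov.toLift.im c ∈ F} F h.cov.toLift.im := by
  refine WS.of_iso (fun _ k => k.2) (fun c hc => ?_) fun c hc d hd => ⟨fun l => ?_,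
    fun l => h.cov.toLift.im_mono l⟩
  · obtain ⟨b, hb, e⟩ := h.exB (hF c hc)
    obtain ⟨d, rfl, hd⟩ := h.cov.toLift.ex_thr hb.1 (e ▸ c.top_mem)
    exact ⟨d, ⟨inn_up (Ch.le_top hd) hb, hc⟩, rfl⟩
  · obtain ⟨q, hq, e⟩ := h.cov.toLift.mem_im.1
      (l (h.cov.toLift.mem_im.2 ⟨_, c.top_mem, rfl⟩))
    have := h.cov.bij.injOn (h.memB hd.1 (Ch.le_top hq) (e ▸ h.piB hc.1)).1 hc.1.1 e
    exact (h.cov.toLift.le_thr hc.1.1 c.top_mem (this ▸ hq)).1 l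

/-- a walk on the boundary of the cut -/
theorem walk {V : Set s.P} (hs : V ⊆ Inn s.A) (ho : Out (Inn s.A) ((Inn s.A \ Uz s.A z) \ V))
    {q : s'.P} (hq : q ∈ Om (Inn s'.A)) (hv : π q ∉ V) :
    ∃ q', Rch {r | r ∈ Om (Inn s'.A) ∧ π r ∉ V} q q' ∧
      ∃ y b, y ∉ s'.A ∧ b ∈ Fr s'.A ∧ y ≤ b ∧ (q' = y ∨ q' = b) := by
  suffices k : ∃ r ∈ Om (Inn s'.A), π r ∉ Inn s.A ∧ Rch {r | r ∈ Om (Inn s'.A) ∧ π r ∉ V} q r by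
    obtain ⟨r, h1, h2, h3⟩ := k
    obtain ⟨q', h4, h5⟩ := h.f6 r h1 h2
    exact ⟨q', h3.trans (h4.mono fun _ k => ⟨k.1, fun j => k.2 (hs j)⟩), h5⟩
  by_cases hM : π q ∈ Inn s.A
  swap
  · exact ⟨q, hq, hM, Rch.rfl⟩
  have hk : π q ∈ Inn s.A \ Uz s.A z :=
    ⟨hM, fun j => let ⟨k, _, hb, l⟩ := hq; k (h.memB hb l j)⟩
  obtain ⟨n, h1, o, h2, h3⟩ := ho _ ⟨hk, hv⟩
  have hn := h1.mem ⟨hk, hv⟩
  obtain ⟨r, hr, e, h4⟩ : ∃ r ∈ Ts s z π (q ∈ s'.A), π r = n ∧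
      Rch {r | r ∈ Om (Inn s'.A) ∧ π r ∉ V} q r :=
    Ind26.rch_ind h1 (p := fun n => ∃ r ∈ Ts s z π (q ∈ s'.A), π r = n ∧
      Rch {r | r ∈ Om (Inn s'.A) ∧ π r ∉ V} q r) ⟨q, ⟨hq, hk, Iff.rfl⟩, rfl, Rch.rfl⟩
      fun a ha b hb l ⟨r, hr, e, k⟩ => by
        obtain ⟨r', hr', e'⟩ := h.ts_surj hb.1 (q ∈ s'.A)
        subst e e'
        exact ⟨r', hr', rfl, k.trans (Rch.of_cm ⟨hr.1, ha.2⟩ ⟨hr'.1, hb.2⟩
          (l.imp (h.ts_le hr hr') (h.ts_le hr' hr)))⟩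
  subst e
  obtain ⟨-, b, hb, l⟩ := hr.1
  obtain ⟨x, hx, rfl⟩ := h.exD hb (h3.trans (h.cov.mon l))
  have l' : x ≤ r := h.cov.refl b hb.1 x r (Or.inr hx) (Or.inr l) h3
  have hx' := om_dn inn_up hr.1 l'
  exact ⟨x, hx', h2, h4.trans (Rch.of_cm ⟨hr.1, hn.2⟩ ⟨hx', fun j => h2 (hs j)⟩ (Or.inr l'))⟩

/-- a boundary region cannot be bounded by a curve parallel to a bad piece -/
theorem no_ng {V : Set s.P} (hV : IsUpperSet V) (hs : V ⊆ Inn s.A)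
    (ho : Out (Inn s.A) ((Inn s.A \ Uz s.A z) \ V))
    (bad : ∀ D, IsCmp (V \ Uz s.A z) D → ¬ H1Z D) {φ : s'.P → s'.P → ℤ}
    (hφ : ∀ x y, φ x y = 1 → π x ∉ V ∧ π y ∈ V) {W : Set (Ch s'.P)}
    (hW : Ng s'.sd.A (rev φ) W) : False := by
  have eI : Inn s'.sd.A = Ch.top ⁻¹' Inn s'.A := inn_desc (Desc.sd s')
  have om : ∀ n : Ch s'.P, n ∈ Om (Inn s'.sd.A) ↔ n.top ∈ Om (Inn s'.A) := fun n => by
    rw [eI]; exact om_sd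
  have same : ∀ n ∈ W, ∀ n' : Ch s'.P, n'.top ∈ Om (Inn s'.A) → Cm n n' →
      (π n.bot ∈ V ↔ π n'.bot ∈ V) → n' ∈ W := fun n hn n' h1 l e => by_contra fun k => by
    have := hW.out n hn n' ((om _).2 h1) k
    rcases l with l | l
    · exact (hφ _ _ (this.1 l)).1 (e.1 (hφ _ _ (this.1 l)).2)
    · exact (hφ _ _ (this.2 l)).1 (e.2 (hφ _ _ (this.2 l)).2)
  by_cases c1 : ∀ n ∈ W, π n.bot ∈ V
  · obtain ⟨n0, hn0, y, hy, hy', l⟩ := hW.ne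
    have g := good_inn (stt_sd h.st').toGood (stt_sd h.st').thick
    obtain ⟨i, hi, l1, l2⟩ : ∃ i ∈ Inn s'.sd.A, n0 ≤ i ∧ y ≤ i := by
      rcases l with l | l
      · obtain ⟨-, i, hi, k⟩ := hy
        exact ⟨i, hi, l.trans k, k⟩
      · obtain ⟨-, i, hi, k⟩ := hW.sub hn0
        exact ⟨i, hi, k, l.trans k⟩
    have cm : ∀ x ∈ (Ch.pr y i l2).1, Cm n0 x := fun x hx => by
      rcases mem_insert.1 hx with rfl | hx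
      exacts [l, Or.inl (mem_singleton.1 hx ▸ l1)]
    have c2 : Ctr W := (ws_sr inn_up g.nice hW.sub).ctr_iff.1 (ctr_bd inn_up g.mf
      (fun c ⟨k, a, ha, k'⟩ => ⟨fun j => (hW.sub k').1 (inn_up (Ch.bot_le ha) j), k⟩) hW.conn
      hW.eu.ge (c := (Ch.pr y i l2).ins n0 cm) ⟨inn_up (Ch.le_top (Ch.le_ins _ _ _
        (mem_insert_of_mem (mem_singleton_self i)))) hi, n0, mem_insert_self _ _, hn0⟩
      (pr_bd l2 hy.1 hi) (fun ⟨_, a, ha, k⟩ => by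
        rcases mem_insert.1 ha with rfl | ha
        exacts [hy' k, (hW.sub k).1 (mem_singleton.1 ha ▸ hi)]) (Or.inr (Ch.le_ins _ _ _)))
    have a1 : ∀ n ∈ W, ∀ q ∈ n.1, q ∈ Om (Inn s'.A) ∧ π q ∈ V \ Uz s.A z := fun n hn q hq =>
      have k := om_dn inn_up ((om n).1 (hW.sub hn)) (Ch.le_top hq)
      ⟨k, hV (h.cov.mon (Ch.bot_le hq)) (c1 n hn),
        fun j => let ⟨k, _, hb, l⟩ := k; k (h.memB hb l j)⟩
    have a2 : ∀ n ∈ W, ∀ q ∈ n.1, (q ∈ s'.A ↔ n.top ∈ s'.A) := fun n hn q hq =>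
      h.side_eq (Ch.le_top hq) (hs (a1 n hn q hq).2.1) (a1 n hn _ n.top_mem).1
        ⟨hs (a1 n hn _ n.top_mem).2.1, (a1 n hn _ n.top_mem).2.2⟩
    let T : Set s'.P := {q | q ∈ Ts s z π (n0.top ∈ s'.A) ∧ π q ∈ V}
    have w : WS (In T Set.univ) (V \ Uz s.A z) (π ∘ Ch.top) := (Kh11.ws_top T).comp
      (WS.of_iso (fun q hq => ⟨hq.2, hq.1.2.1.2⟩) (fun k hk =>
        let ⟨q, hq, e⟩ := h.ts_surj ⟨hs hk.1, hk.2⟩ _; ⟨q, ⟨hq, e ▸ hk.1⟩, e⟩)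
        fun q hq r hr => ⟨h.ts_le hq.1 hr.1, fun l => h.cov.mon l⟩)
    have c3 : IsCmp (In T Set.univ) W := isCmp_of (fun n hn => ⟨fun q hq => ⟨⟨(a1 n hn q hq).1,
      ⟨hs (a1 n hn q hq).2.1, (a1 n hn q hq).2.2⟩, (a2 n hn q hq).trans
        ((c2.conn n hn n0 hn0).eq (g := fun n : Ch s'.P => n.top ∈ s'.A) fun a _ b hb l =>
          propext (a2 b hb _ (l a.top_mem))).to_iff⟩, (a1 n hn q hq).2.1⟩, trivial⟩) c2.ne c2.conn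
      fun n hn n' hn' l => same n hn n' (hn'.1 _ n'.top_mem).1.1 l
        (iff_of_true (c1 n hn) (hn'.1 _ n'.bot_mem).2)
    obtain ⟨D, hD, e⟩ := w.isCmp_ex c3
    exact bad D hD (((w.restr (Kh11.clo_cmp hD)).ctr_iff.1 (e ▸ c2)).ex ℤ)
  push Not at c1
  obtain ⟨n, hn, hv⟩ := c1
  have k0 := om_dn inn_up ((om n).1 (hW.sub hn)) n.bot_le_top
  obtain ⟨q', h1, y, b, h2, h3, l, h4⟩ := h.walk hs ho k0 hv
  have st : ∀ x y (l : x ≤ y), y ∈ Om (Inn s'.A) → π y ∉ V →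
      (Ch.pt x ∈ W ↔ Ch.pr x y l ∈ W) ∧ (Ch.pt y ∈ W ↔ Ch.pr x y l ∈ W) := fun x y l k k' => by
    have kx : π x ∉ V := fun j => k' (hV (h.cov.mon l) j)
    have l1 : Ch.pt x ≤ Ch.pr x y l := Ch.pt_le.2 (by simp)
    have l2 : Ch.pt y ≤ Ch.pr x y l := Ch.pt_le.2 (by simp)
    exact ⟨⟨fun j => same _ j _ (by simpa) (Or.inl l1) (by simp),
      fun j => same _ j _ (by simpa using om_dn inn_up k l) (Or.inr l1) (by simp)⟩,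
      fun j => same _ j _ (by simpa) (Or.inl l2) (by simp [kx, k']),
      fun j => same _ j _ (by simpa) (Or.inr l2) (by simp [kx, k'])⟩
  have h5 : Ch.pt q' ∈ W := h1.ind (p := fun q => Ch.pt q ∈ W)
    (same n hn _ (by simpa) (Or.inr (Ch.pt_le.2 n.bot_mem)) (by simp))
    fun a _ b hb l => (st a b l hb.1 hb.2).1.trans (st a b l hb.1 hb.2).2.symm
  have h6 := h1.mem ⟨k0, hv⟩
  have h7 : Ch.pt y ∈ W := by
    rcases h4 with rfl | rfl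
    exacts [h5, (st y _ l h6.1 h6.2).1.2 ((st y _ l h6.1 h6.2).2.1 h5)]
  rcases hW.side with k | k
  · exact h2 (by simpa [mem_sd] using k _ h7 _ (hW.sub h7) Cm.rfl)
  · exact k _ h7 _ (hW.sub h7) Cm.rfl (Ch.pr y b l)
      (mem_fr_sd.2 (by rwa [Ch.top_pr])) (Ch.pt_le.2 (by simp))

end Fx

end Crest.Agent.X212.Mc37
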