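import Crest.Agent.X212.Sf30.P2Pk
import Crest.Agent.X212.Hp13.Thk

/-!
# X212 / Mc37 (helper37): the boundary sphere of a ball and an innermost disc on it
-/

set_option autoImplicit false
set_option linter.unusedSectionVars false

open Finset Classical

noncomputable section

namespace Crest.Agent.X212.Mc37

open Crest.Agent.X212.Hp13 Alg36 Cut21 Ind26 Pt30
open Sf30 hiding Inn
open Kh11 (WS In)

variable {P : Type} [PartialOrder P] [Fintype P] {V U M W : Set P} {S C : Set (Ch P)}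

/-- the boundary of an upper set -/
def Bd (V : Set P) : Set (Ch P) := {c | c.bot ∉ V ∧ c.top ∈ V}

theorem mix_eq (hV : IsUpperSet V) : mix V = Bd V := Set.ext fun c =>
  ⟨fun ⟨⟨_, ha, k⟩, _, hb, k'⟩ => ⟨fun j => k' (hV (Ch.bot_le hb) j), hV (Ch.le_top ha) k⟩,
    fun h => ⟨⟨_, c.top_mem, h.2⟩, _, c.bot_mem, h.1⟩⟩

theorem bd_up (hV : IsUpperSet V) : IsUpperSet (Bd V) := fun _ _ l h =>
  ⟨fun j => h.1 (hV (Ch.bot_anti l) j), hV (Ch.top_mono l) h.2⟩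

theorem pr_bd {x y : P} (h : x ≤ y) (hx : x ∉ V) (hy : y ∈ V) : Ch.pr x y h ∈ Bd V :=
  ⟨by rwa [Ch.bot_pr], by rwa [Ch.top_pr]⟩

theorem tr_bd {x y w : P} (h : x ≤ y) (h' : y ≤ w) (hx : x ∉ V) (hw : w ∈ V) :
    Ch.tr x y w h h' ∈ Bd V := ⟨by rwa [Ch.bot_tr], by rwa [Ch.top_tr]⟩

/-- the cell of a boundary chain -/
def kb {c : Ch P} (h : c ∈ Bd V) : Lv V (cb (ind V)) :=
  kc ⟨c.top, h.2, fun _ hx => Or.inr (Ch.le_top hx)⟩ h.1 h.2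

theorem ws_lv (h : S ⊆ Bd V) : WS {p : Lv V (cb (ind V)) | p.1.1 ∈ S} S fun p => p.1.1 :=
  WS.of_iso (fun _ hx => hx) (fun _ hc => ⟨kb (h hc), hc, rfl⟩)
    fun _ _ _ _ => ⟨lv_le_pot, lv_ch_le⟩

theorem mf_lv (hV : IsUpperSet V) (hM : Mf 3 V) : Mf 2 (Set.univ : Set (Lv V (cb (ind V)))) := by
  have : Mono V (cb (ind V)) := fun x y h => by
    by_cases hx : x ∈ V
    · rw [cb_ind_zero (iff_of_true hx (hV h.1 hx))]
    · simp only [cb, ind, if_neg hx]; split_ifs <;> simp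
  exact (Set.eq_univ_of_forall fun p => ⟨_, p.1.1.top_mem, (lv_pos p).2⟩ :
    LA V (cb (ind V)) = _) ▸ mf_LA hM this

/-- a disc on the boundary -/
theorem ctr_bd (hV : IsUpperSet V) (hM : Mf 3 V) (h : S ⊆ Bd V) (hc : Conn S) (h1 : 1 ≤ eu S)
    {c d : Ch P} (k : c ∈ S) (k' : d ∈ Bd V) (hd : d ∉ S) (l : Cm c d) : Ctr S :=
  (ws_lv h).ctr_iff.1 (Mf.ctr_of_eu (mf_lv hV hM) (Set.subset_univ _) ((ws_lv h).conn_iff.2 hc)
    (esc_of (Set.subset_univ _) ((ws_lv h).conn_iff.2 hc) (a := kb (h k)) (x := kb k') k hd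
      (l.imp lv_le_pot lv_le_pot)) ((ws_lv h).eu_eq ▸ h1))

/-- some member of `C` goes from `x` to `y` -/
def Rl (C : Set (Ch P)) (x y : P) : Prop := ∃ c ∈ C, c.bot = x ∧ c.top = y

theorem rl_iff (hC : IsCmp S C) {d : Ch P} (hd : d ∈ S) {x y : P} (l : x ≤ y) (hx : x ∈ d.1)
    (hy : y ∈ d.1) (h : Ch.pr x y l ∈ S) : Rl C x y ↔ d ∈ C :=
  ⟨fun ⟨c, hc, e1, e2⟩ => hC.clopen (hC.clopen hc h
      (Or.inr (Ch.pr_le l (e1 ▸ c.bot_mem) (e2 ▸ c.top_mem)))) hd (Or.inl (Ch.pr_le l hx hy)),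
    fun k => ⟨_, hC.clopen k h (Or.inr (Ch.pr_le l hx hy)), Ch.bot_pr .., Ch.top_pr ..⟩⟩

/-- the boundary of a connected region is connected if the outside is joined to `∂M` -/
theorem conn_bd (hV : IsUpperSet V) (hs : V ⊆ M) (hB : Bnd ℤ M) (hc : Conn V)
    (ho : ∀ x ∈ M \ V, ∀ v ∈ V, x ≤ v → ∃ n, Rch (M \ V) x n ∧ ∃ o, o ∉ M ∧ o ≤ n) :
    Conn (Bd V) := fun c0 h0 c hc' => by
  have hC := isCmp_cmp h0
  set C := cmp (Bd V) c0
  let φ : P → P → ℤ := fun x y => if Rl C x y then 1 else 0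
  have r : ∀ x y, Rl C x y → x ∉ V ∧ y ∈ V := fun x y ⟨c, k, e1, e2⟩ => e1 ▸ e2 ▸ hC.sub k
  have z1 : ∀ x y, x ∈ V → φ x y = 0 := fun x y k => if_neg fun j => (r _ _ j).1 k
  have z2 : ∀ x y, y ∉ V → φ x y = 0 := fun x y k => if_neg fun j => k (r _ _ j).2
  obtain ⟨g, g0, hg⟩ := hB φ (fun _ _ x y w l l' _ _ _ => by
    by_cases hx : x ∈ V
    · rw [z1 x _ hx, z1 x _ hx, z1 y _ (hV l hx), add_zero]
    by_cases hw : w ∈ V
    swap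
    · rw [z2 _ w hw, z2 _ w hw, z2 _ y fun j => hw (hV l' j), add_zero]
    have t := tr_bd l l' hx hw
    have e := rl_iff hC t (l.trans l') (Ch.mem_tr.2 (by simp)) (Ch.mem_tr.2 (by simp))
      (pr_bd _ hx hw)
    by_cases hy : y ∈ V
    · rw [z1 y _ hy, add_zero]
      exact if_congr (e.trans (rl_iff hC t l (Ch.mem_tr.2 (by simp)) (Ch.mem_tr.2 (by simp))
        (pr_bd _ hx hy)).symm) rfl rfl
    · rw [z2 _ y hy, zero_add]
      exact if_congr (e.trans (rl_iff hC t l' (Ch.mem_tr.2 (by simp)) (Ch.mem_tr.2 (by simp))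
        (pr_bd _ hy hw)).symm) rfl rfl) fun x y _ _ hy => z2 _ _ fun j => hy (hs j)
  have e : ∀ x, ∀ y ∈ M, x ≤ y → φ x y = g y - g x := fun x y hy l => by
    simpa [cb] using hg x y (Dp.of_right hy l)
  have b : ∀ d ∈ Bd V, φ d.bot d.top = g d.top := fun d hd => by
    rw [e _ _ (hs hd.2) d.bot_le_top, sub_eq_self]
    by_cases k : d.bot ∈ M
    swap
    · exact g0 _ k
    obtain ⟨n, h1, o, h2, h3⟩ := ho _ ⟨k, hd.1⟩ _ hd.2 d.bot_le_top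
    have hn := h1.mem ⟨k, hd.1⟩
    have h4 := e o n hn.1 h3
    rw [z2 _ _ hn.2, g0 o h2] at h4
    rw [h1.eq (g := g) fun x _ y hy l => by have := e x y hy.1 l; rw [z2 _ _ hy.2] at this; omega]
    omega
  have h5 : φ c.bot c.top = 1 := by
    rw [b c hc', (hc _ hc'.2 _ h0.2).eq (g := g) fun x hx y hy l => by
      have := e x y (hs hy) l; rw [z1 _ _ hx] at this; omega, ← b c0 h0]
    exact if_pos ⟨c0, mem_cmp_self h0, rfl, rfl⟩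
  have h6 : Rl C c.bot c.top := by_contra fun k => by simp [φ, k] at h5
  exact ((rl_iff hC hc' c.bot_le_top c.bot_mem c.top_mem (pr_bd _ hc'.1 hc'.2)).1 h6).2

theorem h1z_cmp {E X : Set P} (hX : IsCmp E X) (h : H1Z E) : H1Z X := fun w hw => by
  obtain ⟨g, hg⟩ := h (fun x y => if x ∈ X then w x y else 0) fun x hx y hy t ht l l' => by
    by_cases k : x ∈ X
    · have k' := hX.clopen k hy (Or.inl l)
      simp only [if_pos k, if_pos k']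
      exact hw x k y k' t (hX.clopen k' ht (Or.inl l')) l l'
    · simp only [if_neg k, if_neg fun j => k (hX.clopen j hx (Or.inr l)), add_zero]
  exact ⟨g, fun x hx y hy l => by simpa [hx] using hg x (hX.sub hx) y (hX.sub hy) l⟩

/-- the components without cohomology -/
def Gd (T : Set P) : Set P := {x | x ∈ T ∧ H1Z (cmp T x)}

theorem gd_clo {T : Set P} {x y : P} (hx : x ∈ Gd T) (hy : y ∈ T) (l : Cm x y) : y ∈ Gd T :=
  ⟨hy, cmp_eq (Rch.of_cm hx.1 hy l) ▸ hx.2⟩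

theorem h1z_gd (T : Set P) : H1Z (Gd T) := fun w hw => by
  have : ∀ X : Set P, ∃ g : P → ℤ, H1Z X → X ⊆ Gd T →
      ∀ x ∈ X, ∀ y ∈ X, x ≤ y → w x y = g y - g x := fun X => by
    by_cases k : H1Z X ∧ X ⊆ Gd T
    · obtain ⟨g, hg⟩ := k.1 w (CocOn.mono hw k.2)
      exact ⟨g, fun _ _ => hg⟩
    · exact ⟨0, fun h1 h2 => (k ⟨h1, h2⟩).elim⟩
  choose g hg using this
  refine ⟨fun x => g (cmp T x) x, fun x hx y hy l => ?_⟩
  have r := Rch.of_cm hx.1 hy.1 (Or.inl l)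
  simp only [← cmp_eq r]
  exact hg _ hx.2 (fun t ht => ⟨ht.1, cmp_eq ht.2 ▸ hx.2⟩) x (mem_cmp_self hx.1) y ⟨hy.1, r⟩ l

/-- `V \ U` is two sided in `V` -/
structure Two (V U : Set P) (σ : P → P → Prop) : Prop where
  up : IsUpperSet V
  upU : IsUpperSet U
  l : ∀ k ∈ V \ U, ∀ k' ∈ V \ U, ∀ u ∈ U, k ≤ k' → k' ≤ u → (σ k u ↔ σ k' u)
  r : ∀ k ∈ V \ U, ∀ u ∈ U, ∀ u', k ≤ u → u ≤ u' → (σ k u ↔ σ k u')
  ex : ∀ k ∈ V \ U, ∀ p : Prop, ∃ u ∈ U, k ≤ u ∧ (σ k u ↔ p)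

variable {σ : P → P → Prop}

theorem Two.ch (h : Two V U σ) {c : Ch P} {k k' u u' : P} (a1 : k ∈ c.1) (a2 : k' ∈ c.1)
    (a3 : u ∈ c.1) (a4 : u' ∈ c.1) (hk : k ∈ V \ U) (hk' : k' ∈ V \ U) (hu : u ∈ U)
    (hu' : u' ∈ U) : σ k u ↔ σ k' u' := by
  have ht := h.upU (Ch.le_top a3) hu
  rw [h.r k hk u hu _ ((c.cm a1 a3).resolve_right fun j => hk.2 (h.upU j hu)) (Ch.le_top a3),
    h.r k' hk' u' hu' _ ((c.cm a2 a4).resolve_right fun j => hk'.2 (h.upU j hu')) (Ch.le_top a4)]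
  exact (c.cm a1 a2).elim (fun j => h.l k hk k' hk' _ ht j (Ch.le_top a2))
    fun j => (h.l k' hk' k hk _ ht j (Ch.le_top a1)).symm

/-- the boundary cells that miss `V \ U` -/
def Hs (V U : Set P) : Set (Ch P) := {c | c ∈ Bd V ∧ ¬ Mt (V \ U) c}

theorem Hs.top {c : Ch P} (h : c ∈ Hs V U) : c.top ∈ U :=
  by_contra fun k => h.2 ⟨_, c.top_mem, h.1.2, k⟩

theorem pr_hs {x u : P} (l : x ≤ u) (hx : x ∉ V) (hv : u ∈ V) (hu : u ∈ U) :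
    Ch.pr x u l ∈ Hs V U := ⟨pr_bd l hx hv, fun ⟨a, ha, k⟩ => by
  rcases mem_insert.1 ha with rfl | ha
  exacts [hx k.1, k.2 (mem_singleton.1 ha ▸ hu)]⟩

/-- **an innermost disc** -/
theorem Two.disc (h : Two V U σ) (hM : Mf 3 V) (hc : Conn (Bd V)) (he : 1 ≤ eu V) {x0 k0 : P}
    (hx0 : x0 ∉ V) (hk0 : k0 ∈ V \ U) (l0 : x0 ≤ k0) : ∃ Δ, IsCmp (Hs V U) Δ ∧ eu Δ = 1 ∧
      (∃ p : Prop, ∀ c ∈ Δ, ∀ d, c ≤ d → ∀ k ∈ d.1, k ∈ V \ U → (σ k c.top ↔ p)) ∧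
      ∃ c ∈ Δ, ∃ d, c ≤ d ∧ Mt (V \ U) d := by
  let G : Set (Lv V (cb (ind V))) := {p | Mt (V \ U) p.1.1}
  have col := col_diff (Set.subset_univ G)
  have mf := mf_lv h.up hM
  have w0 := ws_lv (V := V) subset_rfl
  rw [show {p : Lv V (cb (ind V)) | p.1.1 ∈ Bd V} = Set.univ from
    Set.eq_univ_of_forall fun p => lv_pos p] at w0
  let β : Ch (Lv V (cb (ind V))) → Prop := fun D =>
    ∃ k ∈ D.top.1.1.1, k ∈ V \ U ∧ σ k D.bot.1.1.top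
  have tb : ∀ D ∈ If G (Set.univ \ G), Mt (V \ U) D.top.1.1 ∧ D.bot.1.1.top ∈ U :=
    fun D ⟨⟨p, hp, k⟩, q, hq, k'⟩ => ⟨Mt.mono k (lv_ch_le (Ch.le_top hp)), Hs.top
      ⟨lv_pos _, fun j => k'.2 (j.mono (lv_ch_le (Ch.bot_le hq)))⟩⟩
  have key : ∀ D ∈ If G (Set.univ \ G), ∀ k ∈ D.top.1.1.1, ∀ u ∈ D.top.1.1.1, k ∈ V \ U → u ∈ U →
      (β D ↔ σ k u) := fun D hD k a1 u a2 hk hu => by
    have m := lv_ch_le D.bot_le_top D.bot.1.1.top_mem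
    exact ⟨fun ⟨k', b1, b2, b3⟩ => (h.ch b1 a1 m a2 b2 hk (tb D hD).2 hu).1 b3,
      fun j => ⟨k, a1, hk, (h.ch a1 a1 m a2 hk hk (tb D hD).2 hu).2 j⟩⟩
  have mx : ∀ X, Reg G (Set.univ \ G) X → ∀ D ∈ mix X, D ∈ If G (Set.univ \ G) :=
    fun X hX D hD => (hX.mix_cases col hD).resolve_right fun ⟨_, _, k⟩ => k trivial
  have inv : ∀ D ∈ If G (Set.univ \ G), ∀ E, D ≤ E → β D = β E := fun D hD E l => by
    obtain ⟨⟨k, a1, hk⟩, hu⟩ := tb D hD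
    have m := lv_ch_le D.bot_le_top D.bot.1.1.top_mem
    have l' := lv_ch_le (Ch.top_mono l)
    exact propext ((key D hD k a1 _ m hk hu).trans
      (key E (if_upper l hD) k (l' a1) _ (l' m) hk hu).symm)
  obtain ⟨u0, hu0, l1, -⟩ := h.ex k0 hk0 True
  have hG : G.Nonempty := ⟨kb (pr_bd l0 hx0 hk0.1), k0, by simp [kb, kc], hk0⟩
  have hH : (Set.univ \ G).Nonempty := ⟨kb (pr_hs (l0.trans l1) hx0 (h.up l1 hk0.1) hu0).1,
    trivial, (pr_hs (l0.trans l1) hx0 (h.up l1 hk0.1) hu0).2⟩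
  have hcu := w0.conn_iff.2 hc
  have h1 := card_one mf col hcu hG hH
  rw [w0.eu_eq, ← mix_eq h.up, Mf.eu_mix hM] at h1
  obtain ⟨X, hX⟩ := card_pos.1 (show 0 < ((cs G ∪ cs (Set.univ \ G)).filter
    fun X => eu X = 1).card by omega)
  have r := mem_reg.1 (mem_filter.1 hX).1
  have e := (mem_filter.1 hX).2
  have mfX := mf.mono (Set.subset_univ X)
  rcases id r with hX | hX
  · exfalso
    have := eu_add_le mfX r.conn β (fun D hD => inv D (mx X r D hD)) univ fun i _ => by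
      obtain ⟨p, hp⟩ := hX.ne
      obtain ⟨k, a1, hk⟩ := hX.sub hp
      obtain ⟨u, hu, l, hi⟩ := h.ex k hk i
      have lb := Ch.bot_le a1
      have hv := h.up l hk.1
      have q1 := pr_hs (lb.trans l) (lv_pos p).1 hv hu
      have q2 := tr_bd lb l (lv_pos p).1 hv
      have mk : k ∈ (kb q2).1.1.1 := (Ch.mem_tr (h1 := lb) (h2 := l)).2 (by simp)
      have mu : u ∈ (kb q2).1.1.1 := (Ch.mem_tr (h1 := lb) (h2 := l)).2 (by simp)
      have mb : p.1.1.bot ∈ (kb q2).1.1.1 := (Ch.mem_tr (h1 := lb) (h2 := l)).2 (by simp)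
      have q3 : kb q2 ∈ X := hX.clopen (hX.clopen hp (y := kb (pr_bd lb (lv_pos p).1 hk.1))
        ⟨k, by simp [kb, kc], hk⟩ (Or.inr (lv_le_pot (Ch.pr_le lb p.1.1.bot_mem a1))))
        ⟨k, mk, hk⟩ (Or.inl (lv_le_pot (Ch.pr_le lb mb mk)))
      have l2 : kb q1.1 ≤ kb q2 := lv_le_pot (Ch.pr_le (lb.trans l) mb mu)
      have m : Ch.pr _ _ l2 ∈ mix X := ⟨⟨kb q2, by simp, q3⟩, kb q1.1, by simp,
        fun j => q1.2 (hX.sub j)⟩
      exact ⟨_, m, propext ((key _ (mx X r _ m) k (by rwa [Ch.top_pr]) u (by rwa [Ch.top_pr])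
        hk hu).trans hi)⟩
    rw [card_univ, Fintype.card_prop] at this
    omega
  have w1 := ws_lv (V := V) (S := Hs V U) fun _ k => k.1
  rw [show {p : Lv V (cb (ind V)) | p.1.1 ∈ Hs V U} = Set.univ \ G from
    Set.ext fun p => ⟨fun k => ⟨trivial, k.2⟩, fun k => ⟨lv_pos p, k.2⟩⟩] at w1
  obtain ⟨Δ, hΔ, eX⟩ := w1.isCmp_ex hX
  obtain ⟨D0, d1, d2⟩ := r.exists_if col hcu hG hH
  have d3 := r.mix col d1 d2
  refine ⟨Δ, hΔ, by rw [← (w1.restr (Kh11.clo_cmp hΔ)).eu_eq, ← eX, e], ⟨β D0, ?_⟩, ?_⟩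
  · intro c hc d l k a1 hk
    have q1 := hΔ.sub hc
    have l2 : kb q1.1 ≤ kb (bd_up h.up l q1.1) := lv_le_pot l
    have m : Ch.pr _ _ l2 ∈ mix X := ⟨⟨kb q1.1, by simp, eX ▸ ⟨⟨trivial, q1.2⟩, hc⟩⟩,
      kb (bd_up h.up l q1.1), by simp, fun j => (hX.sub j).2 ⟨k, a1, hk⟩⟩
    rw [← (conn_mix2 mfX r.conn e.ge _ m _ d3).eq fun D hD E _ => inv D (mx X r D hD) E]
    exact (key _ (mx X r _ m) k (by rwa [Ch.top_pr]) _ (by rw [Ch.top_pr]; exact l c.top_mem) hk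
      (Hs.top q1)).symm
  · obtain ⟨p, hp, k⟩ := d2
    exact ⟨p.1.1, (eX ▸ k :).2, D0.top.1.1, lv_ch_le (Ch.le_top hp), (tb D0 d1).1⟩

end Crest.Agent.X212.Mc37
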